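import Mathlib.Combinatorics.SimpleGraph.Connectivity.Connected
import Mathlib.Topology.UnitInterval
import Mathlib.SetTheory.Cardinal.Finite

/-! Drawings of graphs in a topological space, minors, 3-vertex-connectivity. -/

namespace Vale.Agent.P039Z

/-- `G` can be drawn in the space `X` without crossings: the vertices are distinct points `p v`,
every edge `e` is an arc `γ e` (a continuous injective map on `[0, 1]`) whose two end points are
the points of the two ends of `e`, an arc passes through no vertex other than its ends, and two
different arcs meet only in vertices. -/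
def DrawnIn (X : Type*) [TopologicalSpace X] {V : Type*} (G : SimpleGraph V) : Prop :=
  ∃ (p : V → X) (γ : G.edgeSet → unitInterval → X), Function.Injective p ∧
    (∀ e, Continuous (γ e) ∧ Function.Injective (γ e)) ∧
    (∀ e, s(γ e 0, γ e 1) = Sym2.map p (e : Sym2 V)) ∧
    (∀ e v, p v ∈ Set.range (γ e) → v ∈ (e : Sym2 V)) ∧
    ∀ e e', e ≠ e' → Set.range (γ e) ∩ Set.range (γ e') ⊆ Set.range p

/-- `H` is a minor of `G`: there are pairwise disjoint sets `μ a` of vertices of `G`, one for each
vertex `a` of `H`, each inducing a connected subgraph, such that an edge of `G` joins `μ a` and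
`μ b` whenever `a` and `b` are adjacent in `H`. -/
def IsMinor {W V : Type*} (H : SimpleGraph W) (G : SimpleGraph V) : Prop :=
  ∃ μ : W → Set V, (∀ a, (G.induce (μ a)).Connected) ∧ (∀ a b, a ≠ b → Disjoint (μ a) (μ b)) ∧
    ∀ a b, H.Adj a b → ∃ x ∈ μ a, ∃ y ∈ μ b, G.Adj x y

/-- At least four vertices, and deleting any set of at most two vertices leaves a connected
graph. -/
def ThreeConnected {V : Type*} (G : SimpleGraph V) : Prop :=
  4 ≤ Nat.card V ∧ ∀ s : Finset V, s.card ≤ 2 → (G.induce {v | v ∉ s}).Connected

end Vale.Agent.P039Z
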