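import Vale.Agent.P039Z.Defs
import Mathlib.Geometry.Manifold.Instances.Sphere
import Mathlib.Analysis.Normed.Module.Ball.Homeomorph
import Mathlib.Analysis.Normed.Module.Connected
import Mathlib.Topology.Baire.Lemmas
import Mathlib.Topology.Baire.LocallyCompactRegular

/-! A finite graph drawn on the sphere can be drawn in the plane. -/

namespace Vale.Agent.P039Z

open Set Function Metric Topology

theorem DrawnIn.map {X Y : Type*} [TopologicalSpace X] [TopologicalSpace Y] {V : Type*}
    {G : SimpleGraph V} (h : DrawnIn X G) (f : X → Y) (hf : Continuous f) (hi : Injective f) :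
    DrawnIn Y G := by
  obtain ⟨p, γ, h1, h2, h3, h4, h5⟩ := h
  refine ⟨f ∘ p, fun e => f ∘ γ e, hi.comp h1, fun e => ⟨hf.comp (h2 e).1, hi.comp (h2 e).2⟩,
    fun e => ?_, ?_, ?_⟩
  · rw [← Sym2.map_map, ← h3 e]; rfl
  · rintro e v ⟨t, ht⟩
    exact h4 e v ⟨t, hi ht⟩
  · rintro e e' hne _ ⟨⟨t, rfl⟩, t', ht'⟩
    obtain ⟨v, hv⟩ := h5 e e' hne ⟨⟨t, rfl⟩, t', hi ht'⟩
    exact ⟨v, congrArg f hv⟩

/-- the plane -/
abbrev E2 : Type := EuclideanSpace ℝ (Fin 2)

/-- the sphere -/
abbrev S2 : Type := sphere (0 : EuclideanSpace ℝ (Fin 3)) 1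

theorem not_injective_plane (f : E2 → ℝ) (hf : Continuous f) : ¬ Injective f := by
  intro hi
  have hr : 1 < Module.rank ℝ E2 := by
    rw [← Module.finrank_eq_rank]; simp
  have key : ∀ a c : E2, f a < f c → False := by
    intro a c hac
    obtain ⟨m, hm⟩ : (f a + f c) / 2 ∈ range f :=
      intermediate_value_univ a c hf ⟨by linarith, by linarith⟩
    have h1 : a ∈ ({m}ᶜ : Set E2) := by rintro rfl; linarith
    have h2 : c ∈ ({m}ᶜ : Set E2) := by rintro rfl; linarith
    have h3 : (f a + f c) / 2 ∈ Icc (f a) (f c) := ⟨by linarith, by linarith⟩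
    obtain ⟨y, hy, hy'⟩ := (isConnected_compl_singleton_of_one_lt_rank hr m).isPreconnected
      |>.intermediate_value h1 h2 hf.continuousOn h3
    exact hy (hi (hy'.trans hm.symm))
  obtain ⟨a, c, hac⟩ := exists_pair_ne E2
  rcases lt_or_gt_of_ne (hi.ne hac) with h | h
  · exact key a c h
  · exact key c a h

local instance : Fact (Module.finrank ℝ (EuclideanSpace ℝ (Fin 3)) = 2 + 1) := ⟨by simp⟩

theorem dense_compl_range {T : Type*} [TopologicalSpace T] [CompactSpace T] (γ : T → S2)
    (hc : Continuous γ) (hi : Injective γ) (c : T → ℝ) (hc' : Continuous c) (hi' : Injective c) :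
    Dense (range γ)ᶜ := by
  rw [← interior_eq_empty_iff_dense_compl, eq_empty_iff_forall_notMem]
  intro x hx
  obtain ⟨v, hv⟩ : ∃ v : S2, x ≠ v := ⟨-x, ne_neg_of_mem_unit_sphere ℝ x⟩
  set φ := stereographic' 2 v with hφ
  have hs : x ∈ φ.source := by rw [hφ, stereographic'_source]; exact hv
  have ht : φ.target = univ := stereographic'_target v
  have h1 : Continuous φ.symm := by
    have := φ.continuousOn_symm
    rwa [ht, continuousOn_univ] at this
  have h2 : Injective φ.symm := by
    have := φ.symm.injOn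
    rwa [OpenPartialHomeomorph.symm_source, ht, injOn_univ] at this
  have h3 : φ x ∈ φ.symm ⁻¹' interior (range γ) := by
    rw [mem_preimage, φ.left_inv hs]; exact hx
  obtain ⟨r, hr, hb⟩ := Metric.isOpen_iff.1 (isOpen_interior.preimage h1) _ h3
  set ψ : OpenPartialHomeomorph E2 E2 := OpenPartialHomeomorph.univBall (φ x) r with hψ
  have h4 : Injective ψ := by
    have := ψ.injOn
    rwa [hψ, OpenPartialHomeomorph.univBall_source, injOn_univ] at this
  have h5 : ∀ y, ∃ t, γ t = φ.symm (ψ y) := by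
    intro y
    refine interior_subset (s := range γ) (hb ?_)
    rw [← OpenPartialHomeomorph.univBall_target (E := E2) (φ x) hr]
    exact ψ.map_source (by rw [hψ, OpenPartialHomeomorph.univBall_source]; trivial)
  choose g hg using h5
  have h6 : Continuous g := by
    rw [(hc.isClosedEmbedding hi).isInducing.continuous_iff, show γ ∘ g = φ.symm ∘ ψ from funext hg]
    exact h1.comp (OpenPartialHomeomorph.continuous_univBall _ _)
  refine not_injective_plane (c ∘ g) (hc'.comp h6) (hi'.comp fun y y' h => h4 (h2 ?_))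
  rw [← hg, ← hg, h]

theorem DrawnIn.plane_of_sphere {V : Type*} [Finite V] {G : SimpleGraph V} (h : DrawnIn S2 G) :
    DrawnIn E2 G := by
  obtain ⟨p, γ, h1, h2, h3, h4, h5⟩ := h
  have hne : Nonempty S2 := (NormedSpace.sphere_nonempty.2 zero_le_one).to_subtype
  have d1 : Dense (⋂ e, (range (γ e))ᶜ) :=
    dense_iInter_of_isOpen (fun e => (isCompact_range (h2 e).1).isClosed.isOpen_compl)
      fun e => dense_compl_range _ (h2 e).1 (h2 e).2 _ continuous_subtype_val Subtype.val_injective
  have d2 : Dense (⋂ v, (range fun _ : Unit => p v)ᶜ) :=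
    dense_iInter_of_isOpen (fun v => (isCompact_range continuous_const).isClosed.isOpen_compl)
      fun v => dense_compl_range _ continuous_const (injective_of_subsingleton _) (fun _ => 0)
        continuous_const (injective_of_subsingleton _)
  have o1 : IsOpen (⋂ e, (range (γ e))ᶜ) :=
    isOpen_iInter_of_finite fun e => (isCompact_range (h2 e).1).isClosed.isOpen_compl
  obtain ⟨x, hx1, hx2⟩ := (d1.inter_of_isOpen_left d2 o1).nonempty
  have a1 : ∀ e t, γ e t ∈ ({x}ᶜ : Set S2) := fun e t h => mem_iInter.1 hx1 e ⟨t, h⟩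
  have a2 : ∀ v, p v ∈ ({x}ᶜ : Set S2) := fun v h => mem_iInter.1 hx2 v ⟨(), h⟩
  have hd : DrawnIn ({x}ᶜ : Set S2) G := by
    refine ⟨fun v => ⟨p v, a2 v⟩, fun e t => ⟨γ e t, a1 e t⟩,
      fun v w h => h1 (congrArg Subtype.val h),
      fun e => ⟨(h2 e).1.subtype_mk _, fun s t h => (h2 e).2 (congrArg Subtype.val h)⟩,
      fun e => ?_, ?_, ?_⟩
    · apply Sym2.map.injective Subtype.val_injective
      rw [Sym2.map_map]
      exact h3 e
    · rintro e v ⟨t, ht⟩
      exact h4 e v ⟨t, congrArg Subtype.val ht⟩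
    · rintro e e' hne _ ⟨⟨t, rfl⟩, t', ht'⟩
      obtain ⟨v, hv⟩ := h5 e e' hne ⟨⟨t, rfl⟩, t', congrArg Subtype.val ht'⟩
      exact ⟨v, Subtype.ext hv⟩
  refine hd.map (fun y => stereographic' 2 x y.1) ?_ ?_
  · have := (stereographic' 2 x).continuousOn
    rw [stereographic'_source] at this
    exact this.domRestrict
  · have := (stereographic' 2 x).injOn
    rw [stereographic'_source] at this
    exact this.injective

theorem DrawnIn.prod_of_plane {V : Type*} {G : SimpleGraph V} (h : DrawnIn E2 G) :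
    DrawnIn (ℝ × ℝ) G := by
  refine h.map (fun x => (x 0, x 1)) (by fun_prop) fun x y hxy => ?_
  ext i
  fin_cases i
  · exact congrArg Prod.fst hxy
  · exact congrArg Prod.snd hxy

end Vale.Agent.P039Z
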